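import Vale.Agent.P281.H167.ML.Iface
import Vale.Agent.P281.H716.KL.X1
import Vale.Agent.P281.H219.KD.Norm
import Vale.Agent.P281.H498.KD.Asm
import Vale.Agent.P281.H156.KD.Tau
import Vale.Agent.P281.H342.ML.Norm

/-! P281, theorem ML, row E: the divisors `D` have nonnegative degree. -/

open scoped Manifold ContDiff Topology ComplexOrder
open Set Filter Vale.Agent.P281 Vale.Agent.P272.K Vale.Agent.P272.K.AMP Vale.Agent.P299
open Vale.Agent.P272.K.INT (IsClosedForm)

set_option linter.unusedSectionVars false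

noncomputable section

namespace Vale.Agent.P281.H716.ML

open Vale.Agent.P281.H713 Vale.Agent.P281.H713.SA Vale.Agent.P281.H713.KD Vale.Agent.P281.H716
open Vale.Agent.P281.H167.GM (mixX addF)
open Vale.Agent.P281.H167.ML

variable {n M : ℕ} {X : Type} [TopologicalSpace X] [ChartedSpace (Cm n) X]
  [IsManifold 𝓘(ℂ, Cm n) ω X]

theorem hess_loc {u : X → ℝ} {e e' : Chart n X} {x : X} (h : At e x) (h' : At e' x)
    (hu : ContDiffAt ℝ 2 (fun z => u (e'.symm z)) (e' x)) :
    hess u e (e x) = (jacM e e' x).transpose * hess u e' (e' x) *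
      (jacM e e' x).map (starRingEnd ℂ) := by
  have h1 : (fun y => u (e.symm y)) =ᶠ[𝓝 (e x)] fun y => u (e'.symm (e' (e.symm y))) := by
    filter_upwards [h.nhds_at h'] with z hz
    rw [hz.2.2.left_inv]
  have h2 : e' (e.symm (e x)) = e' x := by rw [h.left_inv]
  show cHess (fun y => u (e.symm y)) (e x) = _
  rw [cHess_congr h1]
  have := cHess_comp (τ := fun z => e' (e.symm z)) (f := fun y => u (e'.symm y)) (z := e x)
    (by rw [h2]; exact hu) (transition h h')
  rw [h2] at this
  exact this

theorem mixR_nonneg (norm : NormPart) [T2Space X] [CompactSpace X] [ConnectedSpace X]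
    {χ : D.FormM n X} (hχ : IsKahler χ) {Dv : Fin M → Set X} {r : Fin M → X → ℝ}
    {R : Fin M → D.FormM n X} (hBd : IsBd Dv r R) {A : D.FormM n X} (hA : IsClosedForm A)
    (hA0 : ∀ e x, At e x → (A e (e x)).PosSemidef) (i : Fin M) : 0 ≤ mixX A (R i) := by
  refine norm n X χ hχ 1 one_pos (R i) A (hBd.closed i) hA hA0 univ dense_univ (r i)
    (fun x => ?_) ?_
  · have he : At (chartAt (Cm n) x) x := AMP.at_chartAt x
    obtain ⟨g, ψ, hg, hψ, hl, -, hev⟩ := hBd.loc _ x he
    set e : Chart n X := chartAt (Cm n) x with hed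
    have hsm : ∀ (y : X), At e y → ContDiffAt ℝ ∞ (ψ i) (e y) → ∀ e' : Chart n X, At e' y →
        ContDiffAt ℝ ∞ (fun z => ψ i (e (e'.symm z))) (e' y) := by
      intro y hy hψy e' he'
      have h1 : ContDiffAt ℝ ∞ (fun z => e (e'.symm z)) (e' y) :=
        ((transition he' hy).restrict_scalars ℝ).of_le (by simp)
      have h2 : e (e'.symm (e' y)) = e y := by rw [he'.left_inv]
      exact ContDiffAt.comp (e' y) (g := ψ i) (by rw [h2]; exact hψy) h1
    refine ⟨fun y => g i (e y), fun y => ψ i (e y), (Vale.Agent.P281.IsLocalEq.holAt (hl i)), hsm x he (hψ i), ?_⟩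
    have hc : Tendsto e (𝓝 x) (𝓝 (e x)) := e.continuousAt he.2
    have hψe : ∀ᶠ z in 𝓝 (e x), ContDiffAt ℝ 2 (ψ i) z :=
      ((hψ i).of_le (by exact WithTop.coe_le_coe.2 le_top) : ContDiffAt ℝ 2 (ψ i) (e x)).eventually (by simp)
    filter_upwards [e.open_source.mem_nhds he.2, hc.eventually (eventually_eventually_nhds.2 hev),
      hc.eventually hψe] with y hy1 hy2 hy3
    have hy : At e y := ⟨he.1, hy1⟩
    constructor
    · intro e' he'
      have h3 : (fun z => ψ i (e (e.symm z))) =ᶠ[𝓝 (e y)] ψ i := by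
        filter_upwards [hy.nhds_target] with z hz
        rw [e.right_inv hz]
      have h4 : ContDiffAt ℝ 2 (fun z => ψ i (e (e.symm z))) (e y) :=
        hy3.congr_of_eventuallyEq h3
      rw [(hBd.closed i).form e' e y he' hy, hess_loc (u := fun y => ψ i (e y)) he' hy h4]
      congr 2
      show R i e (e y) = cHess (fun z => ψ i (e (e.symm z))) (e y)
      rw [cHess_congr h3]
      exact (hy2.self_of_nhds i).2
    · intro _
      have h5 := (hy2.self_of_nhds i).1
      rw [e.left_inv hy1] at h5
      rw [h5]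
      simp
  · obtain ⟨x₀⟩ : Nonempty X := inferInstance
    obtain ⟨x, hx, -⟩ := (H219.KD.dense_offD hBd).exists_mem_open isOpen_univ ⟨x₀, trivial⟩
    exact ⟨x, trivial, (H498.r_pos hBd (hx i)).ne'⟩

/-- **Row E of theorem ML**, from row G. -/
theorem effPart_of (norm : NormPart) : EffPart := by
  classical
  intro n M X _ _ _ _ _ _ χ hχ Dv r R hBd φ hφ dl dl' hle A hA hA0
  have key : ∀ s : Finset (Fin M),
      IsClosedForm (fun (e : Chart n X) z => ∑ i ∈ s, ((dl' i - dl i : ℝ) : ℂ) • R i e z) ∧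
      0 ≤ mixX A fun (e : Chart n X) z => ∑ i ∈ s, ((dl' i - dl i : ℝ) : ℂ) • R i e z := by
    intro s
    induction s using Finset.induction_on with
    | empty =>
      have h0 := H156.KD.isClosed_zero (n := n) (X := X)
      have h1 : (fun (e : Chart n X) z => ∑ i ∈ (∅ : Finset (Fin M)),
          ((dl' i - dl i : ℝ) : ℂ) • R i e z) = fun e z => 0 := by
        funext e z
        simp
      rw [h1]
      refine ⟨h0, ?_⟩
      rw [H716.KL.mixX_comb (B'' := fun e z => 0) (a := 0) (a' := 0) hA h0 h0 (fun e x _ => by simp)]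
      simp
    | insert a s ha ih =>
      have h1 : IsClosedForm fun (e : Chart n X) z => ((dl' a - dl a : ℝ) : ℂ) • R a e z :=
        (hBd.closed a).smul ((dl' a - dl a : ℝ) : ℂ)
      have h2 : (fun (e : Chart n X) z => ∑ i ∈ insert a s, ((dl' i - dl i : ℝ) : ℂ) • R i e z) =
          fun (e : Chart n X) z => ((dl' a - dl a : ℝ) : ℂ) • R a e z +
            ∑ i ∈ s, ((dl' i - dl i : ℝ) : ℂ) • R i e z := by
        funext e z
        rw [Finset.sum_insert ha]
      rw [h2]
      refine ⟨h1.add ih.1, ?_⟩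
      rw [H716.KL.mixX_comb (a := dl' a - dl a) (a' := 1) hA (hBd.closed a) ih.1
        (fun e x _ => by push_cast; rw [one_smul])]
      have h3 := mixR_nonneg norm hχ hBd hA hA0 a
      have h4 := mul_nonneg (sub_nonneg.2 (hle a)) h3
      linarith [ih.2]
  have h1 := key Finset.univ
  have h2 := H716.KL.mixX_comb (B'' := clsK φ dl' R) (a := 1) (a' := 1) hA
    (H156.KD.isClosed_clsK (dl := dl) hφ hBd.closed) h1.1 (fun e x _ => by
      simp only [clsK]
      rw [Complex.ofReal_one, one_smul, one_smul, add_assoc, ← Finset.sum_add_distrib]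
      congr 1
      refine Finset.sum_congr rfl fun i _ => ?_
      rw [← add_smul]
      congr 1
      push_cast
      ring)
  rw [h2]
  linarith [h1.2]

/-- **Row E of theorem ML.** -/
theorem effPart : EffPart := effPart_of H342.ML.normPart

end Vale.Agent.P281.H716.ML
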