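import Vale.Agent.P281.H167.ML.Iface
import Vale.Agent.P281.H167.RC.C
import Vale.Agent.P281.H167.RC.E2
import Vale.Agent.P281.H455.RC.Curve
import Vale.Agent.P281.H156.RC.Clos
import Vale.Agent.P281.H156.RC.Dens
import Vale.Agent.P281.H949.MFS.DG
import Vale.Agent.P281.H716.Met

/-! P281, theorem ML, row C: a hypersurface covered by contracted rational curves is contracted on the
fibre. -/

open scoped Manifold ContDiff Topology ComplexOrder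
open Set Filter Vale.Agent.P272.K Vale.Agent.P299
open Vale.Agent.P272.K.INT (IsClosedForm)
open Vale.Agent.P299.D (Ten tenPull FormM)

set_option linter.unusedSectionVars false

noncomputable section

namespace Vale.Agent.P281.H716.ML

open Vale.Agent.P281 Vale.Agent.P281.MF Vale.Agent.P281.ISO
open Vale.Agent.P281.H167 Vale.Agent.P281.H713 Vale.Agent.P281.H713.SA Vale.Agent.P281.H716
open Vale.Agent.P281.H167.RC Vale.Agent.P281.H167.ML
open Vale.Agent.P281.H167.GM (addF)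
open Vale.Agent.P281.H368.MFS (IsSemiPos ConAt InKer)

variable {n p d : ℕ} {X Z Y F : Type} [TopologicalSpace X] [T2Space X]
  [ChartedSpace (Cm n) X] [IsManifold 𝓘(ℂ, Cm n) ω X]
  [TopologicalSpace Z] [ChartedSpace (Cm n) Z] [IsManifold 𝓘(ℂ, Cm n) ω Z]
  [TopologicalSpace Y] [ChartedSpace (Cm p) Y] [IsManifold 𝓘(ℂ, Cm p) ω Y]
  [TopologicalSpace F] [ChartedSpace (Cm d) F] [IsManifold 𝓘(ℂ, Cm d) ω F]

/-- a hypersurface covered by rational curves contracted by `β` contains a vector of the kernel of `β`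
tangent to the fibre -/
theorem vec_of_rat (ker : KerPart) (clos : ClosPart) (dens : DensPart) (hn : n = p + d)
    {j : Z → X} (hj : J.IsBigOpen (Cm n) j) {f : Z → Y} (hf : ContMDiff 𝓘(ℂ, Cm n) 𝓘(ℂ, Cm p) ω f)
    {Δ : Set X → ℝ} (hΔ : J.IsSNC (Cm n) Δ) {m₁ : ℕ} (hm₁ : 0 < m₁) {K : Set X → ℕ}
    (hK : ∀ D, (K D : ℝ) = m₁ * Δ D) {τ : Ten n (m₁ * p) X} (hτ : IsTenP (m₁ * p) K τ)
    {O : Set Y} (hO : IsOpen O) (hOd : Dense O)
    (hval : ∀ z, f z ∈ O → (∀ D, Δ D ≠ 0 → j z ∉ D) → ∃ s : ℂ, s ≠ 0 ∧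
      ∀ e, At e (j z) → ∀ I, τ e (e (j z)) I = s * tT f m₁ (fun z => e (j z)) I z)
    {i : F → Z} (hi : IsSmoothFibre (Cm n) (Cm p) (Cm d) f i) {β : FormM n X}
    (hcl : IsClosedForm β) {g : X → ℂ} {w : F}
    (hg : J.HolAt (Cm n) g (j (i w)))
    (hgF : J.dif (Cm d) (fun s => g (j (i s))) w ≠ 0) (h0 : g (j (i w)) = 0)
    (hr : ∀ᶠ z in 𝓝 (j (i w)), g z = 0 → ∃ᶠ z' in 𝓝 z, g z' = 0 ∧
      RatAt n Δ (fun (_ : Fin 0) (_ : X) => (0 : ℂ)) g β z') :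
    ∃ ξ : Cm d, ξ ≠ 0 ∧ J.dif (Cm d) (fun s => g (j (i s))) w ξ = 0 ∧
      ∀ l, ∑ k, ((mfderiv 𝓘(ℂ, Cm d) 𝓘(ℂ, Cm n) (fun s => j (i s)) w : Cm d →L[ℂ] Cm n) ξ) k *
        β (chartAt (Cm n) (j (i w))) (chartAt (Cm n) (j (i w)) (j (i w))) k l = 0 := by
  have hjh : ∀ z, HolM (Cm n) (Cm n) j z := fun z => hj.1 z
  have hj₂ : ∀ z, Function.Injective (dM (Cm n) (Cm n) j z) := hj.2.2.1
  have hfh : ∀ z, HolM (Cm n) (Cm p) f z := fun z => hf z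
  have hih : ∀ t, HolM (Cm d) (Cm n) i t := fun t => hi.hol t
  have hιh : ∀ t, HolM (Cm d) (Cm n) (fun s => j (i s)) t := fun t =>
    ContMDiffAt.comp t (hjh (i t)) (hih t)
  have hdι : ∀ t (ξ : Cm d), dM (Cm d) (Cm n) (fun s => j (i s)) t ξ =
      dM (Cm n) (Cm n) j (i t) (dM (Cm d) (Cm n) i t ξ) := by
    intro t ξ
    have e1 := mfderiv_comp t (I := 𝓘(ℂ, Cm d)) (I' := 𝓘(ℂ, Cm n)) (I'' := 𝓘(ℂ, Cm n))
      (ContMDiffAt.mdifferentiableAt (hjh (i t)) (by simp))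
      (ContMDiffAt.mdifferentiableAt (hih t) (by simp))
    exact congrArg (fun T : Cm d →L[ℂ] Cm n => T ξ) e1
  have hdif : ∀ (G : X → ℂ), HolAt (Cm n) G (j (i w)) → ∀ ξ : Cm d,
      dif (Cm d) (fun s => G (j (i s))) w ξ =
        dif (Cm n) G (j (i w)) (dM (Cm n) (Cm n) j (i w) (dM (Cm d) (Cm n) i w ξ)) := by
    intro G hG ξ
    have e1 := dV_comp (E := Cm d) (E' := Cm n) (h := G) (f := fun s => j (i s)) (x := w) hG
      (hιh w)
    have e2 := congrArg (fun T : Cm d →L[ℂ] ℂ => T ξ) e1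
    rw [← hdι]
    exact e2
  have hjs : ∀ z (u : Cm n), ∃ v, dM (Cm n) (Cm n) j z v = u := by
    intro z u
    have h1 : Function.Surjective (dM (Cm n) (Cm n) j z : Cm n →ₗ[ℂ] Cm n) :=
      LinearMap.injective_iff_surjective.1 (hj₂ z)
    exact h1 u
  -- transversality at `i w`
  have hT0 : Trans n p j f g (i w) := by
    intro y a
    obtain ⟨v₀, hv₀⟩ : ∃ v₀ : Cm n, dM (Cm n) (Cm p) f (i w) v₀ = y := hi.submersive w y
    obtain ⟨ξ, hξ⟩ : ∃ ξ, dif (Cm d) (fun s => g (j (i s))) w ξ ≠ 0 := by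
      by_contra hcon
      push Not at hcon
      exact hgF (ContinuousLinearMap.ext hcon)
    rw [hdif g hg ξ] at hξ
    have hfi : dM (Cm n) (Cm p) f (i w) (dM (Cm d) (Cm n) i w ξ) = 0 := by
      have e1 := mfderiv_comp w (I := 𝓘(ℂ, Cm d)) (I' := 𝓘(ℂ, Cm n)) (I'' := 𝓘(ℂ, Cm p))
        (ContMDiffAt.mdifferentiableAt (hfh (i w)) (by simp))
        (ContMDiffAt.mdifferentiableAt (hih w) (by simp))
      have e2 : f ∘ i = fun _ => f (i w) := funext fun t' => hi.const t' w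
      rw [e2] at e1
      have e3 : mfderiv 𝓘(ℂ, Cm d) 𝓘(ℂ, Cm p) (fun _ : F => f (i w)) w = 0 := mfderiv_const
      rw [e3] at e1
      exact (congrArg (fun T : Cm d →L[ℂ] Cm p => T ξ) e1).symm
    set lam₀ : ℂ := (a - dif (Cm n) g (j (i w)) (dM (Cm n) (Cm n) j (i w) v₀)) /
      dif (Cm n) g (j (i w)) (dM (Cm n) (Cm n) j (i w) (dM (Cm d) (Cm n) i w ξ)) with hlam
    refine ⟨v₀ + lam₀ • dM (Cm d) (Cm n) i w ξ, ?_, ?_⟩
    · rw [map_add, map_smul, hfi, smul_zero, add_zero]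
      exact hv₀
    · rw [map_add, map_smul, map_add, map_smul, smul_eq_mul, hlam, div_mul_cancel₀ _ hξ]
      ring
  have hTev := trans_open hjh hfh hg hT0
  have hker : RC.KerAt p j f (fun (_ : Fin 0) (_ : X) => (0 : ℂ)) g β (i w) := by
    refine clos n p X Z Y j hj f hf β hcl (i w) 0 _ g hg (fun b => b.elim0) ?_
    have h1 := dens n p X Z Y j hj f hf g (i w) hg h0 (fun y => hT0 y 0) (by
      intro hcon
      obtain ⟨v, -, hv⟩ := hT0 0 1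
      rw [hcon] at hv
      exact zero_ne_one hv) O hO hOd
    have h2 : ∀ᶠ z' in 𝓝 (i w), (g (j z') = 0 → ∃ᶠ x' in 𝓝 (j z'), g x' = 0 ∧
        RatAt n Δ (fun (_ : Fin 0) (_ : X) => (0 : ℂ)) g β x') ∧
          ∀ᶠ z'' in 𝓝 z', Trans n p j f g z'' :=
      ((hjh (i w)).continuousAt.eventually hr).and (eventually_eventually_nhds.2 hTev)
    intro hcon
    have hcon' := eventually_eventually_nhds.2 hcon
    obtain ⟨z', ⟨⟨hz1, hz2⟩, hz3, hz4⟩, hz5⟩ := ((h1.and_eventually h2).and_eventually hcon').exists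
    have h3 := hz3 hz1
    rw [← hj.2.1.map_nhds_eq z', frequently_map] at h3
    have h4 : ∀ᶠ z'' in 𝓝 z', f z'' ∈ O := (hfh z').continuousAt.eventually (hO.mem_nhds hz2)
    obtain ⟨z'', ⟨⟨⟨hg0, hrat⟩, hT⟩, hfO⟩, hnot⟩ :=
      (((h3.and_eventually hz4).and_eventually h4).and_eventually hz5).exists
    apply hnot
    obtain ⟨q, c, c', v₀, hc, hc0, hcΔ, hfill, hcv, hv0, hgv, hPk, hβv⟩ := hrat
    obtain ⟨v, hv⟩ := hjs z'' v₀
    refine ⟨hg0, v, v₀, hv, hv0, hgv, hPk, hβv, ?_⟩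
    obtain ⟨s, hs, hsv⟩ := hval z'' hfO hcΔ
    refine ker n p q m₁ X Z Y j hj f hf Δ hΔ K hK hm₁ τ hτ c c' hc (fun D hD => by
      rw [hc0]; exact hcΔ D hD) z'' hc0 s hs hsv (fun y => ?_) v (hv.trans hcv.symm)
    obtain ⟨v', hv1, hv2⟩ := hT y 0
    obtain ⟨a, ha⟩ := hfill _ hv2
    exact ⟨v', a, hv1, ha.symm⟩
  obtain ⟨-, v, w₁, hvw, hw₁, hgw, hPw, hβw, hfv⟩ := hker
  have hvw' : dM (Cm n) (Cm n) j (i w) v = w₁ := hvw
  obtain ⟨ξ, hξ⟩ := ker_fibre hn hfh hi w hfv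
  have hξ0 : ξ ≠ 0 := by
    rintro rfl
    rw [map_zero] at hξ
    rw [← hξ, map_zero] at hvw'
    exact hw₁ hvw'.symm
  have hwξ : dM (Cm n) (Cm n) j (i w) (dM (Cm d) (Cm n) i w ξ) = w₁ := by
    rw [hξ]
    exact hvw'
  refine ⟨ξ, hξ0, ?_, ?_⟩
  · show dif (Cm d) (fun s => g (j (i s))) w ξ = 0
    rw [hdif g hg ξ, hwξ]
    exact hgw
  · have h1 : (mfderiv 𝓘(ℂ, Cm d) 𝓘(ℂ, Cm n) (fun s => j (i s)) w : Cm d →L[ℂ] Cm n) ξ = w₁ :=
      (hdι w ξ).trans hwξ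
    rw [h1]
    exact hβw

/-- **Row C of theorem ML.** -/
theorem ratPartM : RatPartM := by
  intro n p d hn X Z Y F _ _ _ _ _ _ _ _ _ _ _ _ _ j hj f hf Δ hΔ m₁ hm₁ K hK τ hτ O hO hOd hval
    i hi α θ hα hθ g s hg hgF h0 hr
  have hcl : IsClosedForm (addF α 1 θ) :=
    H167.GM.isClosed_addF hα.isClosedForm hθ.isClosedForm 1
  have hker : ∀ (x : X) (v : Cm n), (∀ j, ∑ i, v i * addF α 1 θ (chartAt (Cm n) x)
      (chartAt (Cm n) x x) i j = 0) ↔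
      InKer (α (chartAt (Cm n) x) (chartAt (Cm n) x x)) v ∧
      InKer (θ (chartAt (Cm n) x) (chartAt (Cm n) x x)) v := by
    intro x v
    have hx : At (chartAt (Cm n) x) x := ⟨chart_mem_atlas (Cm n) x, mem_chart_source (Cm n) x⟩
    have h1 := H716.IsSys.ker_add (hα.posSemidef _ _ hx) (hθ.posSemidef _ _ hx) v
    have h2 : addF α 1 θ (chartAt (Cm n) x) (chartAt (Cm n) x x) =
        α (chartAt (Cm n) x) (chartAt (Cm n) x x) + θ (chartAt (Cm n) x) (chartAt (Cm n) x x) := by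
      simp [addF]
    rw [h2]
    exact h1
  have hr' : ∀ᶠ z in 𝓝 (j (i s)), g z = 0 → ∃ᶠ z' in 𝓝 z, g z' = 0 ∧
      RatAt n Δ (fun (_ : Fin 0) (_ : X) => (0 : ℂ)) g (addF α 1 θ) z' := by
    filter_upwards [hr] with z hz hgz
    refine (hz hgz).mono ?_
    rintro z' ⟨h1, q, c, c', v, hc, hc0, hcΔ, hfill, hcv, hv0, hgv, hαv, hθv⟩
    exact ⟨h1, q, c, c', v, hc, hc0, hcΔ, hfill, hcv, hv0, hgv, fun b => b.elim0,
      (hker z' v).2 ⟨hαv, hθv⟩⟩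
  obtain ⟨ξ, hξ0, hξg, hξβ⟩ := vec_of_rat (kerPart H455.RC.curvePart) H156.RC.closPart
    H156.RC.densPart hn hj hf hΔ hm₁ hK hτ hO hOd hval hi hcl hg hgF h0 hr'
  obtain ⟨hα1, hθ1⟩ := (hker (j (i s)) _).1 hξβ
  have hιh : ContMDiffAt 𝓘(ℂ, Cm d) 𝓘(ℂ, Cm n) ω (fun t => j (i t)) s :=
    ContMDiffAt.comp s (hj.1 (i s)) (hi.hol s)
  have h2 := H956.mfderiv_eq_jacF hιh ξ
  have hs : At (chartAt (Cm d) s) s := H956.at_chartAt (n := d) s
  have hjs : At (chartAt (Cm n) (j (i s))) (j (i s)) := H956.at_chartAt (n := n) (j (i s))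
  refine ⟨ξ, hξ0, hξg, ?_, ?_⟩
  · refine H949.MFS.inKer_pull hα.isClosedForm.form hιh hs hjs ?_
    rw [← h2]
    exact hα1
  · refine H949.MFS.inKer_pull hθ.isClosedForm.form hιh hs hjs ?_
    rw [← h2]
    exact hθ1

end Vale.Agent.P281.H716.ML
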